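import Vale.Agent.P092.H144.Nd.Of

/-!
P092, project ND (helper144): a group `E(L) ≤ G ≤ Aut(L)` which is embedded in the matrices is closed
in the matrices.
-/

set_option linter.all false

open Filter Topology Module MeasureTheory

namespace Vale.Agent.P092.H144.Nd

open Vale.Agent.P092.H213.Rp
open Vale.Agent.P092.H720.Rp (RA Ng)
open Vale.Agent.P092.H144.Rp

variable {k : Type} [NontriviallyNormedField k] [CompleteSpace k] [CharZero k] {L : Type}
  [LieRing L] [LieAlgebra k L] {n : ℕ} {G : Type} [Group G]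
  [TopologicalSpace G] {b : Basis (Fin n) k L} {ρ : G →* Module.End k L}

/-- every automorphism near `1` is in the image -/
theorem near_ra (h : RA b ρ) :
    ∀ᶠ M in 𝓝 (1 : Matrix (Fin n) (Fin n) k),
      (∃ T : Module.End k L, IsAut T ∧ LinearMap.toMatrix b b T = M) →
        ∃ g, LinearMap.toMatrix b b (ρ g) = M := by
  haveI := fin_of b
  have hN : Submodule.span k {z | Crv b ρ (⊤ : Subgroup G) z} = ⊤ := by
    rw [eq_top_iff, ← span_all h.simple h.iso]
    exact Submodule.span_mono fun x hx => crv_nil' (fun _ _ h' => rho_inj h.emb h') h.full hx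
      fun _ _ _ => Subgroup.mem_top _
  filter_upwards [inv h.simple b ρ h.lie ⊤ hN] with M hM hT
  obtain ⟨g, _, hg⟩ := hM hT
  exact ⟨g, hg⟩

/-- **The range is closed.** -/
theorem closed_ra (h : RA b ρ) : IsClosedEmbedding fun g => LinearMap.toMatrix b b (ρ g) := by
  haveI := fin_of b
  haveI := h.simple
  refine ⟨h.emb, ?_⟩
  refine isClosed_of_closure_subset fun M hM => ?_
  have hA : AutB (brk b) (m2c M) := by
    refine (isClosed_autB b).closure_subset_iff.2 ?_ hM
    rintro _ ⟨g, rfl⟩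
    exact autB_clm b (h.lie g)
  have hD : M.det ^ 2 = 1 := by
    have hc : IsClosed {M : Matrix (Fin n) (Fin n) k | M.det ^ 2 = 1} :=
      isClosed_eq (continuous_id.matrix_det.pow 2) continuous_const
    refine hc.closure_subset_iff.2 ?_ hM
    rintro _ ⟨g, rfl⟩
    exact (isAut_rho h.lie g).det_sq b
  have hD0 : M.det ≠ 0 := by
    intro h0
    rw [h0] at hD
    norm_num at hD
  obtain ⟨T, hT⟩ : ∃ T : Module.End k L, LinearMap.toMatrix b b T = M :=
    ⟨Matrix.toLin b b M, LinearMap.toMatrix_toLin b b M⟩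
  have hTa : IsAut T := by
    refine ⟨?_, lie_of_autB b (by rw [← m2c_toMatrix, hT]; exact hA)⟩
    rw [LinearMap.isUnit_iff_isUnit_det T, ← LinearMap.det_toMatrix b, hT]
    exact isUnit_iff_ne_zero.2 hD0
  set φ : Matrix (Fin n) (Fin n) k → Matrix (Fin n) (Fin n) k :=
    fun M' => (M'.det)⁻¹ • (M'.adjugate * M) with hφ
  have hφM : φ M = 1 := by
    rw [hφ]
    show (M.det)⁻¹ • (M.adjugate * M) = 1
    rw [Matrix.adjugate_mul, smul_smul, inv_mul_cancel₀ hD0, one_smul]
  have hφc : ContinuousAt φ M :=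
    (ContinuousAt.inv₀ continuous_id.matrix_det.continuousAt hD0).smul
      (continuous_id.matrix_adjugate.matrix_mul continuous_const).continuousAt
  have h1 : Tendsto φ (𝓝 M) (𝓝 1) := by
    have := hφc.tendsto
    rwa [hφM] at this
  have h2 := h1.eventually (near_ra h)
  have h3 : ∃ᶠ M' in 𝓝 M, M' ∈ Set.range fun g => LinearMap.toMatrix b b (ρ g) :=
    mem_closure_iff_frequently.1 hM
  obtain ⟨M', ⟨g, hg⟩, hM'⟩ := (h3.and_eventually h2).exists
  have h4 : φ M' = LinearMap.toMatrix b b (ρ g⁻¹ * T) := by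
    have e1 : φ M' = mt b ρ g⁻¹ * M := by
      rw [mt_inv, hφ, ← hg, Matrix.smul_mul]
      rfl
    rw [e1, ← hT, Module.End.mul_eq_comp, LinearMap.toMatrix_comp b b b]
    rfl
  obtain ⟨g', hg'⟩ := hM' ⟨ρ g⁻¹ * T, (isAut_rho h.lie _).mul hTa, h4.symm⟩
  refine ⟨g * g', ?_⟩
  show LinearMap.toMatrix b b (ρ (g * g')) = M
  have h5 : ρ g' = ρ g⁻¹ * T := by
    apply (LinearMap.toMatrix b b).injective
    rw [hg', h4]
  rw [map_mul, h5, ← mul_assoc, ← map_mul, mul_inv_cancel, map_one, one_mul, hT]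

/-- `nd_of` with the curves for closed embeddings. -/
theorem nd_of' [SecondCountableTopology k] (h : RA b ρ)
    (cv : IsClosedEmbedding (fun g => LinearMap.toMatrix b b (ρ g)) →
      ∀ H : Subgroup G, IsClosed (H : Set G) → ¬ DiscreteTopology H →
        ∃ x : L, x ≠ 0 ∧ Crv b ρ H x) : H213.Nd.ND G :=
  nd_of h (cv (closed_ra h))

end Vale.Agent.P092.H144.Nd
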