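import Vale.Agent.P092.H144.Rp.Main
import Vale.Agent.P092.H720.Rp.Ra
import Vale.Agent.P092.H213.Nd.Bd

/-!
P092, project ND (helper144), rows (2) + (3): a closed nondiscrete subgroup of finite covolume of a
group of automorphisms of a simple isotropic Lie algebra is open, given the Borel density statement
for subspaces (helper213) and the existence of one curve.
-/

set_option linter.all false

open Filter Topology Module MeasureTheory

namespace Vale.Agent.P092.H144.Nd

open Vale.Agent.P092.H213.Rp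
open Vale.Agent.P092.H720.Rp (RA Ng)
open Vale.Agent.P092.H144.Rp

variable {k : Type} [NontriviallyNormedField k] [CompleteSpace k] [CharZero k] {L : Type}
  [LieRing L] [LieAlgebra k L] {n : ℕ} {G : Type} [Group G]
  [TopologicalSpace G] {b : Basis (Fin n) k L} {ρ : G →* Module.End k L}

/-- Conjugates of curves. -/
theorem crv_conj [Module.Finite k L] (lie : ∀ g (x y : L), ρ g ⁅x, y⁆ = ⁅ρ g x, ρ g y⁆)
    {H : Subgroup G} {x : L} (hx : Crv b ρ H x) {m : G} (hm : m ∈ H) : Crv b ρ H (ρ m x) := by
  obtain ⟨γ, h1, h2, h3⟩ := hx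
  have haut : ∀ g, IsAut (ρ g) := isAut_rho lie
  refine Crv.of_clm (γ := fun t => m * γ t * m⁻¹) (fun t => ?_) ?_ ?_
  · exact H.mul_mem (H.mul_mem hm (h1 t)) (H.inv_mem hm)
  · simp only [h2]; group
  · have e : (fun t => clm b (ρ (m * γ t * m⁻¹))) =
        fun t => clm b (ρ m) * clm b (ρ (γ t)) * clm b (ρ m⁻¹) := by
      funext t
      rw [map_mul, map_mul, map_mul, map_mul]
    rw [e]
    have h4 := ((Crv.strict h3).const_mul (clm b (ρ m))).mul_const (clm b (ρ m⁻¹))
    have h5 : clm b (LieAlgebra.ad k L (ρ m x)) =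
        clm b (ρ m) * clm b (LieAlgebra.ad k L x) * clm b (ρ m⁻¹) := by
      rw [(haut m).ad_conj (S := ρ m⁻¹) (by rw [← map_mul, mul_inv_cancel, map_one])]
      rw [map_mul, map_mul]
    rw [h5]
    exact h4

/-- **Row (2)**: a subspace which is stable under the conjugates of the torus elements is trivial. -/
theorem triv_of (h : RA b ρ) (V : Submodule k L)
    (hV : ∀ (s : L) (t : k) (a : G), Spl k s → 1 < ‖t‖ →
      (∀ (i : ℤ), ∀ z ∈ egs k s i, ρ a z = (t ^ i) • z) →
      ∀ g : G, V ≤ V.comap (ρ (g⁻¹ * a * g))) : V = ⊥ ∨ V = ⊤ := by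
  haveI := fin_of b
  have hE : RP b (ρ.comp (Ng ρ).subtype) := h.rp0.rp
  obtain ⟨x, hx0, hx⟩ := h.iso
  obtain ⟨s, y, htr⟩ := jm_rp hE x hx hx0
  obtain ⟨t₀, ht₀⟩ := NormedField.exists_one_lt_norm k
  have ht0 : t₀ ≠ 0 := by
    rintro rfl
    rw [norm_zero] at ht₀
    linarith
  obtain ⟨a, ha⟩ := aut_rp hE s x y htr (Units.mk0 t₀ ht0)
  have hx2 : x ∈ egs k s 2 := by
    rw [mem_egs, htr.lie_h_e_nsmul]
    push_cast
    exact (two_smul ℕ x).trans (two_smul k x).symm
  have ha1 : a ≠ 1 := by
    rintro rfl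
    have h6 := ha 2 x hx2
    rw [map_one, Module.End.one_apply, Units.val_mk0, zpow_ofNat] at h6
    have h7 : (t₀ ^ 2 - 1) • x = 0 := by rw [sub_smul, one_smul, ← h6, sub_self]
    rcases smul_eq_zero.1 h7 with h8 | h8
    · have h9 : ‖t₀ ^ 2‖ = 1 := by rw [sub_eq_zero.1 h8, norm_one]
      rw [norm_pow] at h9
      nlinarith
    · exact hx0 h8
  have key : ∀ c : Ng ρ, V ≤ V.comap (ρ ((c * a * c⁻¹ : Ng ρ) : G)) := by
    intro c
    have h1 := hV s t₀ (a : G) (spl_rp hE s x y htr) ht₀ (fun i z hz => ha i z hz) ((c : G)⁻¹)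
    rw [inv_inv] at h1
    exact h1
  -- the stabiliser
  have hinv : ∀ g : G, V ≤ V.comap (ρ g) → V ≤ V.comap (ρ g⁻¹) := by
    intro g hg
    have h1 : V.map (ρ g) ≤ V := Submodule.map_le_iff_le_comap.2 hg
    have hinj : Function.Injective (ρ g) := by
      intro u v huv
      have := congrArg (ρ g⁻¹) huv
      rwa [← Module.End.mul_apply, ← Module.End.mul_apply, ← map_mul, inv_mul_cancel, map_one,
        Module.End.one_apply, Module.End.one_apply] at this
    have h2 : V.map (ρ g) = V := by
      refine Submodule.eq_of_le_of_finrank_eq h1 ?_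
      exact (Submodule.equivMapOfInjective (ρ g) hinj V).finrank_eq.symm
    intro v hv
    rw [← h2] at hv
    obtain ⟨w, hw, rfl⟩ := hv
    show ρ g⁻¹ (ρ g w) ∈ V
    rw [← Module.End.mul_apply, ← map_mul, inv_mul_cancel, map_one, Module.End.one_apply]
    exact hw
  let S : Subgroup (Ng ρ) :=
    { carrier := {c | V ≤ V.comap (ρ (c : G))}
      one_mem' := fun v hv => by
        show ρ ((1 : Ng ρ) : G) v ∈ V
        rw [Subgroup.coe_one, map_one]
        exact hv
      mul_mem' := fun {c d} hc hd v hv => by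
        show ρ ((c * d : Ng ρ) : G) v ∈ V
        rw [Subgroup.coe_mul, map_mul, Module.End.mul_apply]
        exact hc (hd hv)
      inv_mem' := fun {c} hc => hinv c hc }
  have hS : S = ⊤ := by
    have h3 : Subgroup.normalClosure {a} ≤ S := by
      rw [Subgroup.normalClosure, Subgroup.closure_le]
      intro u hu
      obtain ⟨a', ha', hc⟩ := Group.mem_conjugatesOfSet_iff.1 hu
      rw [Set.mem_singleton_iff] at ha'
      subst ha'
      obtain ⟨c, rfl⟩ := isConj_iff.1 hc
      exact key c
    rcases Rp.simple hE (Subgroup.normalClosure {a}) Subgroup.normalClosure_normal with h4 | h4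
    · exfalso
      have h5 : a ∈ Subgroup.normalClosure {a} := Subgroup.subset_normalClosure rfl
      rw [h4, Subgroup.mem_bot] at h5
      exact ha1 h5
    · rw [eq_top_iff, ← h4]
      exact h3
  refine ideal_of_eu h.simple (span_rp hE) V fun z hz v hv => ?_
  obtain ⟨u, hu⟩ := hE.full z hz
  have hu1 : u ∈ S := by rw [hS]; trivial
  have h5 : ρ (u : G) v ∈ V := hu1 hv
  have h6 : ρ (u : G) = eu k z := hu
  rwa [h6] at h5

/-- Matrix coefficients are continuous. -/
theorem cont_coeff' (he : IsEmbedding fun g => LinearMap.toMatrix b b (ρ g)) (φ : L →ₗ[k] k)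
    (v : L) : Continuous fun g : G => φ (ρ g v) := by
  have h1 : ∀ g : G, φ (ρ g v) = ∑ i, (∑ j, LinearMap.toMatrix b b (ρ g) i j * b.repr v j) *
      φ (b i) := by
    intro g
    have h2 := LinearMap.toMatrix_mulVec_repr b b (ρ g) v
    conv_lhs => rw [← b.sum_repr (ρ g v), map_sum]
    refine Finset.sum_congr rfl fun i _ => ?_
    rw [map_smul, smul_eq_mul, ← h2]
    rfl
  have h3 : (fun g : G => φ (ρ g v)) = fun g : G =>
      ∑ i, (∑ j, LinearMap.toMatrix b b (ρ g) i j * b.repr v j) * φ (b i) := funext h1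
  rw [h3]
  have h4 : Continuous fun g : G => LinearMap.toMatrix b b (ρ g) := he.continuous
  refine continuous_finsetSum _ fun i _ => Continuous.mul (continuous_finsetSum _ fun j _ =>
    Continuous.mul ?_ continuous_const) continuous_const
  exact (continuous_apply j).comp ((continuous_apply i).comp h4)

/-- **Rows (2) + (3)**: closed nondiscrete subgroups of finite covolume are open, if closed
nondiscrete subgroups contain a curve. -/
theorem nd_of [SecondCountableTopology k] (h : RA b ρ)
    (cv : ∀ H : Subgroup G, IsClosed (H : Set G) → ¬ DiscreteTopology H →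
      ∃ x : L, x ≠ 0 ∧ Crv b ρ H x) : H213.Nd.ND G := by
  haveI := fin_of b
  haveI := topGroup h.emb
  haveI := secCount h.emb
  intro H hH hν hd
  obtain ⟨x, hx0, hx⟩ := cv H hH hd
  let V : Submodule k L := Submodule.span k {z | Crv b ρ H z}
  have hst : ∀ g ∈ H, ∀ w ∈ V, ρ g w ∈ V := by
    intro g hg
    have h1 : V ≤ V.comap (ρ g) := Submodule.span_le.2 fun z hz =>
      Submodule.subset_span (crv_conj h.lie hz hg)
    exact h1
  rcases triv_of h V (fun s t a hs ht ha g => H213.Nd.bd ρ (cont_coeff' h.emb) hν hst ht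
    (D := fun i => egs k s i) hs ha g) with h1 | h1
  · exfalso
    have h2 : x ∈ V := Submodule.subset_span hx
    rw [h1, Submodule.mem_bot] at h2
    exact hx0 h2
  · exact isOpen_of_crv' h.simple h.emb h.lie h1

end Vale.Agent.P092.H144.Nd
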